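import Vale.Agent.P073Y.Ln.Line

/-!
# The sharp regions before the holes are opened
-/

open Set Metric
open scoped NNReal ENNReal

namespace P073.Ln

open P073.Top

/-- the region between the slabs of the boxes `z - e₂` and `z` -/
def Gam (N : ℕ) (t : ℝ) (c : (Fin 3 → ℤ) → E3) (z : Fin 3 → ℤ) : Set E3 :=
  {y | (∀ i, i ≠ 2 → z i * wd N i + 1 / 2 ≤ y i ∧ y i ≤ (z i + 1) * wd N i - 1 / 2) ∧
    c (z - Pi.single 2 1) 2 + t ≤ y 2 ∧ y 2 ≤ c z 2 - t}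

/-- the map which opens the holes sends the region into the sharp region and keeps the lateral
coordinates -/
theorem gam_shr {N : ℕ} {t κ : ℝ} {c : (Fin 3 → ℤ) → E3} {Bp : Set (Fin 3 → ℤ)} {Φ : E3 → E3}
    (ht : 0 ≤ t) (hκ : 0 ≤ κ) (hκ' : κ ≤ 1 / 2) (hc : ∀ z ∈ Bp, c z ∈ mid N z)
    (hk : ∀ z, MapsTo Φ (lbox N 0 z) (lbox N 0 z))
    (hΦ : ∀ z ∈ Bp, ∀ y ∈ lbox N 0 z, t ≤ |y 2 - c z 2| → (∀ i, i ≠ 2 → Φ y i = y i) ∧
      ((∀ i, i ≠ 2 → z i * wd N i + κ ≤ y i ∧ y i ≤ (z i + 1) * wd N i - κ) →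
        (y 2 ≤ c z 2 → Φ y 2 ≤ z 2 + κ) ∧ (c z 2 ≤ y 2 → z 2 + 1 - κ ≤ Φ y 2)))
    {z : Fin 3 → ℤ} (hz : z ∈ Bp) (hz' : z - Pi.single 2 1 ∈ Bp) {y : E3} (hy : y ∈ Gam N t c z) :
    Φ y ∈ shr N κ z ∧ ∀ i, i ≠ 2 → Φ y i = y i := by
  obtain ⟨h1, h2, h3⟩ := hy
  have w2 : wd N 2 = 1 := rfl
  have key : (∀ i, i ≠ 2 → Φ y i = y i) ∧ |Φ y 2 - z 2| ≤ 2 * κ := by
    rcases le_total (z 2 : ℝ) (y 2) with e | e
    · have c2 := (hc z hz).2 2
      simp only [if_true, w2] at c2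
      have hm : y ∈ lbox N 0 z := by
        refine ⟨fun i => ?_, fun i => ?_⟩ <;> by_cases hi : i = 2
        · subst hi; simp only [w2]; linarith
        · have := (h1 i hi).1; simp only; linarith
        · subst hi; simp only [w2]; linarith
        · have := (h1 i hi).2; simp only; linarith
      obtain ⟨a1, a2⟩ := hΦ z hz y hm (by rw [le_abs]; right; linarith)
      have a3 := (a2 fun i hi => ⟨by linarith [(h1 i hi).1], by linarith [(h1 i hi).2]⟩).1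
        (by linarith)
      have a4 := (hk z hm).1 2
      simp only [w2] at a4
      exact ⟨a1, abs_le.2 ⟨by linarith, by linarith⟩⟩
    · have c2 := (hc _ hz').1 2
      have e2 : (((z - Pi.single 2 1 : Fin 3 → ℤ) 2 : ℤ) : ℝ) = z 2 - 1 := by simp
      have e3 : ∀ i, i ≠ 2 → (z - Pi.single 2 1 : Fin 3 → ℤ) i = z i := fun i hi => by simp [hi]
      simp only [if_true, w2, e2] at c2
      have hm : y ∈ lbox N 0 (z - Pi.single 2 1) := by
        refine ⟨fun i => ?_, fun i => ?_⟩ <;> by_cases hi : i = 2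
        · subst hi; simp only [w2, e2]; linarith
        · have := (h1 i hi).1; simp only [e3 i hi]; linarith
        · subst hi; simp only [w2, e2]; linarith
        · have := (h1 i hi).2; simp only [e3 i hi]; linarith
      obtain ⟨a1, a2⟩ := hΦ _ hz' y hm (by rw [le_abs]; left; linarith)
      have a3 := (a2 fun i hi => by
        rw [e3 i hi]
        exact ⟨by linarith [(h1 i hi).1], by linarith [(h1 i hi).2]⟩).2 (by linarith)
      have a4 := (hk _ hm).2 2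
      simp only [w2, e2] at a3 a4
      exact ⟨a1, abs_le.2 ⟨by linarith, by linarith⟩⟩
  refine ⟨⟨key.2, fun i hi => ?_⟩, key.1⟩
  rw [key.1 i hi]
  exact h1 i hi

/-- the lateral variation only depends on the lateral coordinates -/
theorem lat_congr {g G : E3 → E3} {x y : E3}
    (h : ∀ u ∈ segment ℝ x y, ∀ i, i ≠ 2 → G u i = g u i) : lat G x y = lat g x y := by
  have key : ∀ i, i ≠ 2 → segVar (fun u => G u i) x y = segVar (fun u => g u i) x y := fun i hi =>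
    eVariationOn.eq_of_eqOn fun s hs => h _ (by
      rw [segment_eq_image_lineMap]; exact ⟨s, hs, rfl⟩) i hi
  rw [lat, lat, key 0 (by decide), key 1 (by decide)]

theorem cor_mem (i : Fin 2) {s t : ℝ} (hs : |s| ≤ 1) (ht : |t| ≤ 1) :
    cor i s t ∈ closedBall (0 : E2) 1 := by
  refine mem_closedBall_zero_iff.2 ((pi_norm_le_iff_of_nonneg zero_le_one).2 fun k => ?_)
  simp only [cor, Real.norm_eq_abs]
  split_ifs
  exacts [hs, ht]

/-- a marked face stays marked if the lateral coordinates are kept -/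
theorem marked_congr {Ω : Set E3} {S : Src Ω} {g G : E3 → E3} {θ a : ℝ} {φ : S.Q.ι}
    {ψ : E2 →ᵃ[ℝ] E3} (hM : Marked S g θ φ ψ a)
    (h : ∀ u ∈ S.Q.cell φ, ∀ i, i ≠ 2 → G u i = g u i) : Marked S G θ φ ψ a := by
  refine ⟨hM.dim, hM.inj, hM.cell, hM.pos, fun i t ht => ⟨(hM.side i t ht).1, ?_⟩⟩
  have ht' : |t| ≤ 1 := by rcases ht with rfl | rfl <;> simp
  have hc : Convex ℝ (S.Q.cell φ) := by
    rw [hM.cell]
    exact (convex_closedBall _ _).affine_image ψ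
  rw [lat_congr fun u hu => h u (hc.segment_subset ?_ ?_ hu)]
  · exact (hM.side i t ht).2
  · rw [hM.cell]
    exact mem_image_of_mem _ (cor_mem i (by simp) ht')
  · rw [hM.cell]
    exact mem_image_of_mem _ (cor_mem i (by simp) ht')

/-- the sharp clauses in the regions `Γ i` for a source complex -/
structure SharpS {Ω : Set E3} (S : Src Ω) (p θ ϑ c D : ℝ) (η : ℝ≥0∞) (g h : E3 → E3)
    (ψ : S.Q.ι → (E2 →ᵃ[ℝ] E3)) (a : S.Q.ι → ℝ) {ι : Type} (Γ : ι → Set E3) : Prop where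
  near : ∀ x ∈ Ω, ∀ i, g x ∈ Γ i → ∀ k, k ≠ 2 → |h x k - g x k| ≤ D
  wire : ∀ e x y, S.Q.dim e = 1 → S.Q.cell e = segment ℝ x y → ∀ i, g '' S.Q.cell e ⊆ Γ i →
    SharpE g h x y θ η ∧ Rise g h x y ϑ η
  face : ∀ φ, Marked S g θ φ (ψ φ) (a φ) → ∀ i, g '' S.Q.cell φ ⊆ Γ i →
    SharpF p h (ψ φ) (a φ) θ c η

/-- from the output of a round applied to `Φ ∘ g`, with all faces marked for `Φ ∘ g` -/
theorem sharpS_of {Ω : Set E3} (S : Src Ω) {p θ ϑ c D κ : ℝ} {η : ℝ≥0∞} {g h Φ Ψ : E3 → E3}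
    {ψ : S.Q.ι → (E2 →ᵃ[ℝ] E3)} {a : S.Q.ι → ℝ} {ι : Type} {Γ : ι → Set E3} {N : ℕ}
    (ζ : ι → Fin 3 → ℤ) (hΓ : ∀ i, ∀ y ∈ Γ i, Φ y ∈ shr N κ (ζ i) ∧ ∀ k, k ≠ 2 → Φ y k = y k)
    (hΨ : ∀ z, ∀ y ∈ shr N κ z, ∀ k, k ≠ 2 → Ψ y k = y k)
    (hD : ∀ x ∈ Ω, ∀ i, g x ∈ Γ i → dist (h x) (Ψ (Φ (g x))) ≤ D)
    (hE : ∀ i e x y, S.Q.dim e = 1 → S.Q.cell e = segment ℝ x y →
      (Φ ∘ g) '' S.Q.cell e ⊆ shr N κ (ζ i) → SharpE (Φ ∘ g) h x y θ η ∧ Rise (Φ ∘ g) h x y ϑ η)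
    (hF : ∀ i φ, Marked S (Φ ∘ g) θ φ (ψ φ) (a φ) → (Φ ∘ g) '' S.Q.cell φ ⊆ shr N κ (ζ i) →
      SharpF p h (ψ φ) (a φ) θ c η) : SharpS S p θ ϑ c D η g h ψ a Γ := by
  have im : ∀ {X : Set E3} {i}, g '' X ⊆ Γ i → (Φ ∘ g) '' X ⊆ shr N κ (ζ i) := by
    rintro X i hX _ ⟨u, hu, rfl⟩
    exact (hΓ i _ (hX ⟨u, hu, rfl⟩)).1
  refine ⟨fun x hx i hi k hk => ?_, fun e x y he hxy i hi => ?_, fun φ hM i hi => ?_⟩
  · have h1 := (dist_le_pi_dist _ _ k).trans (hD x hx i hi)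
    rwa [hΨ _ _ (hΓ i _ hi).1 k hk, (hΓ i _ hi).2 k hk, Real.dist_eq] at h1
  · have h1 := hE i e x y he hxy (im hi)
    have h2 : lat (Φ ∘ g) x y = lat g x y :=
      lat_congr fun u hu k hk => (hΓ i _ (hi ⟨u, hxy ▸ hu, rfl⟩)).2 k hk
    rwa [SharpE, Rise, h2] at h1
  · exact hF i φ (marked_congr hM fun u hu k hk => (hΓ i _ (hi ⟨u, hu, rfl⟩)).2 k hk) (im hi)

theorem sq_inj (z : Fin 3 → ℤ) : Function.Injective (sq z) :=
  Function.LeftInverse.injective (Fc.qs_sq z)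

/-- from the complex to the unit lattice -/
theorem SharpS.sharp {Ω : Set E3} {S : Src Ω} {p θ ϑ c D a : ℝ} {η : ℝ≥0∞} {g h : E3 → E3}
    {ψ : S.Q.ι → (E2 →ᵃ[ℝ] E3)} {α : S.Q.ι → ℝ} {ι : Type} {Γ : ι → Set E3}
    (H : SharpS S p θ ϑ c D η g h ψ α Γ) (ha : 0 < a) {I : Finset (Fin 3)}
    {W : Finset (Fin 3 → ℤ)} (hΩ : ∀ z ∈ W, uface z I ⊆ Ω)
    (hw : ∀ z ∈ W, ∀ k ∉ I, ∀ z', segment ℝ (vt z') (nx z' k) ⊆ uface z I →
      ∃ e, S.Q.dim e = 1 ∧ S.Q.cell e = segment ℝ (vt z') (nx z' k))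
    (hf : I = {2} → ∀ z ∈ W, ∃ φ, S.Q.dim φ = 2 ∧ S.Q.cell φ = uface z I ∧ ψ φ = sq z ∧
      α φ = a / 2) : Sharp p θ ϑ c D a η I g h W Γ := by
  have cv : ∀ z, Convex ℝ (uface z I) := fun z =>
    (convex_Icc _ _).inter (show Convex ℝ {ξ : E3 | ∀ i ∈ I, ξ i = z i} from
      fun x hx y hy s t _ _ hst i hi => by
        simp only [Pi.add_apply, Pi.smul_apply, smul_eq_mul, hx i hi, hy i hi]
        rw [← add_mul, hst, one_mul])
  refine ⟨fun z hz x hx => H.near x (hΩ z hz hx), fun z hz k hk i hi => ?_,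
    fun hI z hz i hi hl => ?_⟩
  · obtain ⟨e, he, hc⟩ := hw z hz k hk z
      ((cv z).segment_subset (Rw.vt_mem z I) (Rw.step_mem z hk))
    exact H.wire e _ _ he hc i (hc ▸ hi)
  · obtain ⟨φ, h1, h2, h3, h4⟩ := hf hI z hz
    have hM : Marked S g θ φ (ψ φ) (α φ) := by
      rw [h3, h4]
      subst hI
      refine ⟨h1, sq_inj z, h2.trans (Fc.uface_eq z), by positivity, fun k t ht => ⟨?_, hl k t ht⟩⟩
      have ht' : |t| ≤ 1 := by rcases ht with rfl | rfl <;> simp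
      have sub := (cv z).segment_subset (Fc.sq_mem z (cor_mem k (s := -1) (by simp) ht'))
        (Fc.sq_mem z (cor_mem k (s := 1) (by simp) ht'))
      obtain rfl | rfl : k = 0 ∨ k = 1 := by omega
      all_goals rcases ht with rfl | rfl
      · rw [Fc.sq_cor0mp, Fc.sq_cor0pp] at sub ⊢; exact hw z hz 0 (by decide) _ sub
      · rw [Fc.sq_cor0mm, Fc.sq_cor0pm] at sub ⊢; exact hw z hz 0 (by decide) _ sub
      · rw [Fc.sq_cor1mp, Fc.sq_cor1pp] at sub ⊢; exact hw z hz 1 (by decide) _ sub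
      · rw [Fc.sq_cor1mm, Fc.sq_cor1pm] at sub ⊢; exact hw z hz 1 (by decide) _ sub
    have := H.face φ hM i (h2 ▸ hi)
    rwa [h3, h4] at this

end P073.Ln
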