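import Vale.Agent.P073Y.Top.Defs

/-!
# Rows of sharp wires: statements
-/

open Set Metric Topology Filter MeasureTheory
open scoped NNReal ENNReal

namespace P073.Ln

open P073.Top

/-- the lattice point -/
def vt (z : Fin 3 → ℤ) : E3 := fun i => (z i : ℝ)

/-- the next lattice point in the direction `k` -/
def nx (z : Fin 3 → ℤ) (k : Fin 3) : E3 := vt (z + Pi.single k 1)

/-- the parametrisation of the bottom square of the cube `z` -/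
noncomputable def sq (z : Fin 3 → ℤ) : E2 →ᵃ[ℝ] E3 where
  toFun v := ![z 0 + (v 0 + 1) / 2, z 1 + (v 1 + 1) / 2, z 2]
  linear := LinearMap.pi ![(1 / 2 : ℝ) • LinearMap.proj 0, (1 / 2 : ℝ) • LinearMap.proj 1, 0]
  map_vadd' v w := by
    ext i
    fin_cases i <;> simp <;> ring

/-- along the wire from `x` to `y` the map `g` deviates by at most `X` from a monotone motion of
length `a` in the direction `k`; this does not depend on the parametrisation of the wire -/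
structure Dev (a : ℝ) (g : E3 → E3) (x y : E3) (k : Fin 3) (X : ℝ≥0∞) : Prop where
  var : ∀ j, segVar (fun u => g u j) x y ≤ (if j = k then ENNReal.ofReal a else 0) + X
  net : ENNReal.ofReal (a - (g y k - g x k)) ≤ X

/-- the sharp clauses in the regions `Γ i`, for the bottom faces of the cubes of `W` -/
structure Sharp (p θ ϑ c D a : ℝ) (η : ℝ≥0∞) (I : Finset (Fin 3)) (g h : E3 → E3)
    (W : Finset (Fin 3 → ℤ)) {ι : Type} (Γ : ι → Set E3) : Prop where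
  near : ∀ z ∈ W, ∀ x ∈ uface z I, ∀ i, g x ∈ Γ i → ∀ k, k ≠ 2 → |h x k - g x k| ≤ D
  wire : ∀ z ∈ W, ∀ k ∉ I, ∀ i, g '' segment ℝ (vt z) (nx z k) ⊆ Γ i →
    SharpE g h (vt z) (nx z k) θ η ∧ Rise g h (vt z) (nx z k) ϑ η
  face : I = {2} → ∀ z ∈ W, ∀ i, g '' uface z I ⊆ Γ i →
    (∀ (k : Fin 2) (t : ℝ), (t = 1 ∨ t = -1) → lat g (sq z (cor k (-1) t)) (sq z (cor k 1 t)) ≤
      ENNReal.ofReal ((1 + θ) * (2 * (a / 2)))) → SharpF p h (sq z) (a / 2) θ c η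

/-- the deviation is bounded by the variation of `g` minus a linear map -/
def DEV : Prop := ∀ {a : ℝ} {g : E3 → E3} (B : E3 →L[ℝ] E3) {x y : E3} (k : Fin 3), 0 ≤ a →
  B (y - x) = Pi.single k a → Dev a g x y k (segVar (fun u => g u - B u) x y)

/-- the energy on a sharp wire -/
def WIRE : Prop := ∀ {p θ a : ℝ} {η : ℝ≥0∞} {g h : E3 → E3} (z : Fin 3 → ℤ), 1 ≤ p → 0 < θ →
  θ ≤ 1 / 1000 → 0 < a → η ≤ ENNReal.ofReal (θ * a) → SharpE g h (vt z) (nx z 0) θ η →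
  lat g (vt z) (nx z 0) ≤ ENNReal.ofReal ((1 + θ) * a) →
  (1 - θ) * a ≤ h (nx z 0) 0 - h (vt z) 0 →
  En 1 p (fun ξ => h ξ - (a • dgs {1, 2} 0) ξ) (uface z {1, 2}) ≤
    ENNReal.ofReal (θ * (40 * a) ^ p)

/-- the energy on a sharp square -/
def FACE : Prop := ∀ {p θ a c : ℝ} {η : ℝ≥0∞} {h : E3 → E3} (z : Fin 3 → ℤ), 1 ≤ p → 0 < θ →
  0 < a → 0 ≤ c → SharpF p h (sq z) (a / 2) θ c η →
  (∀ z' k, (k = 0 ∧ (z' = z ∨ z' = z + Pi.single 1 1)) ∨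
    (k = 1 ∧ (z' = z ∨ z' = z + Pi.single 0 1)) → (1 - θ) * a ≤ h (nx z' k) k - h (vt z') k) →
  En 2 p (fun ξ => h ξ - (a • dgs {2} 0) ξ) (uface z {2}) ≤
    ENNReal.ofReal (θ * (c * a) ^ p) + 2 ^ p * η

open Classical in
/-- the row estimate for numbers: `u` rises at most `(1 + ϑ) (a + 2 X) + η` on the wires of `S`,
is close to `v`, and `v` rises at least `a - X` -/
def ROW : Prop := ∀ {θ ϑ D a η : ℝ} {R : ℕ} (e : Fin 3 → ℤ) (u v X : (Fin 3 → ℤ) → ℝ)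
  (S V : Finset (Fin 3 → ℤ)), 0 ≤ θ → 0 ≤ ϑ → ϑ ≤ 1 → 0 ≤ D → 0 ≤ a → 0 ≤ η → 1 ≤ R →
  (∀ z ∈ S, 0 ≤ X z ∧ a - X z ≤ v (z + e) - v z ∧
    u (z + e) - u z ≤ (1 + ϑ) * (a + 2 * X z) + η ∧
    |u z - v z| ≤ D ∧ |u (z + e) - v (z + e)| ≤ D) →
  (∀ z ∈ V, ∀ j : ℤ, |j| < R → z + j • e ∈ S) →
  θ * a * ((V.filter fun z => u (z + e) - u z < (1 - θ) * a).card : ℝ) ≤
    5 * ∑ z ∈ S, X z + S.card * (ϑ * a + η + 2 * D / R)

open Classical in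
/-- most wires in the direction `k` are sharp -/
def ROWS : Prop := ∀ {p θ ϑ c D a : ℝ} {η : ℝ≥0∞} {R : ℕ} {I : Finset (Fin 3)} {g h : E3 → E3}
  {ι : Type} (Γ : ι → Set E3) (W V : Finset (Fin 3 → ℤ)) (X : (Fin 3 → ℤ) → ℝ≥0∞) (k : Fin 3),
  0 < θ → θ ≤ 1 → 0 ≤ ϑ → ϑ ≤ 1 → 0 ≤ D → 0 < a → 1 ≤ R → k ∉ I → k ≠ 2 →
  Sharp p θ ϑ c D a η I g h W Γ → (∀ z ∈ W, Dev a g (vt z) (nx z k) k (X z)) →
  (∀ z ∈ V, (∀ j : ℤ, |j| < R → z + j • Pi.single k 1 ∈ W) ∧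
    ∃ i, closedBall (g (vt z)) (2 * R * a) ⊆ Γ i) →
  ENNReal.ofReal (θ * a) * ((V.filter fun z => ¬ ((∃ i, g '' segment ℝ (vt z) (nx z k) ⊆ Γ i) ∧
      lat g (vt z) (nx z k) ≤ ENNReal.ofReal ((1 + θ) * a) ∧
      (1 - θ) * a ≤ h (nx z k) k - h (vt z) k)).card : ℝ≥0∞) ≤
    9 * ∑ z ∈ W, X z + W.card * (ENNReal.ofReal (ϑ * a + 2 * D / R) + η)

open Classical in
/-- most bottom faces have a small energy of `h` minus the linear map -/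
def LINE : Prop := ∀ {p θ ϑ c D a o : ℝ} {η : ℝ≥0∞} {R : ℕ} {I : Finset (Fin 3)} {g h : E3 → E3}
  {ι : Type} (Γ : ι → Set E3) (W V : Finset (Fin 3 → ℤ)) (X : (Fin 3 → ℤ) → Fin 3 → ℝ≥0∞),
  1 ≤ p → 0 < θ → θ ≤ 1 / 1000 → 0 ≤ ϑ → ϑ ≤ 1 → 0 ≤ c → 0 ≤ D → 0 < a → 0 ≤ o → 1 ≤ R →
  η ≤ ENNReal.ofReal (θ * a) → (I = {2} ∨ I = {1, 2}) → Sharp p θ ϑ c D a η I g h W Γ →
  (∀ z ∈ W, ∀ k ∉ I, Dev a g (vt z) (nx z k) k (X z k)) →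
  (∀ z ∈ V, (∀ z', (∀ i, |z' i - z i| ≤ R) → (∀ i ∈ I, z' i = z i) → z' ∈ W) ∧
    ∀ x ∈ uface z I, dist (g x) (g (vt z)) ≤ o) →
  ∃ 𝓖 ⊆ V, (∀ z ∈ 𝓖, (∃ i, g '' uface z I ⊆ Γ i) ∧
      En (3 - I.card) p (fun ξ => h ξ - (a • dgs I 0) ξ) (uface z I) ≤
        ENNReal.ofReal (θ * ((c + 40) * a) ^ p) + 2 ^ p * η) ∧
    ENNReal.ofReal (θ * a) * ((V \ 𝓖).card : ℝ≥0∞) ≤
      ENNReal.ofReal (θ * a) * ((V.filter fun z =>
        ∀ i, ¬ closedBall (g (vt z)) (2 * R * a + o) ⊆ Γ i).card : ℝ≥0∞) +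
      18 * ∑ z ∈ W, ∑ k ∈ Iᶜ, X z k + 4 * W.card * (ENNReal.ofReal (ϑ * a + 2 * D / R) + η)

end P073.Ln
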