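import Vale.Agent.P073Y.Ln.Sk
import Vale.Agent.P073Z.EN.B

/-!
# Sharp squares, and the deviation along a wire
-/

open Set Metric Topology Filter MeasureTheory
open scoped NNReal ENNReal

namespace P073.Ln

open P073.Top

namespace Fc

theorem sq_apply (z : Fin 3 → ℤ) (v : E2) :
    sq z v = ![z 0 + (v 0 + 1) / 2, z 1 + (v 1 + 1) / 2, z 2] := rfl

theorem sq_cor0mm (z : Fin 3 → ℤ) : sq z (cor 0 (-1) (-1)) = vt z := by
  ext i
  fin_cases i <;> simp [sq_apply, cor, vt]

theorem sq_cor0pm (z : Fin 3 → ℤ) : sq z (cor 0 1 (-1)) = nx z 0 := by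
  ext i
  fin_cases i <;> simp [sq_apply, cor, vt, nx]

theorem sq_cor0mp (z : Fin 3 → ℤ) : sq z (cor 0 (-1) 1) = vt (z + Pi.single 1 1) := by
  ext i
  fin_cases i <;> simp [sq_apply, cor, vt]

theorem sq_cor0pp (z : Fin 3 → ℤ) : sq z (cor 0 1 1) = nx (z + Pi.single 1 1) 0 := by
  ext i
  fin_cases i <;> simp [sq_apply, cor, vt, nx]

theorem sq_cor1mm (z : Fin 3 → ℤ) : sq z (cor 1 (-1) (-1)) = vt z := by
  ext i
  fin_cases i <;> simp [sq_apply, cor, vt]

theorem sq_cor1pm (z : Fin 3 → ℤ) : sq z (cor 1 1 (-1)) = nx z 1 := by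
  ext i
  fin_cases i <;> simp [sq_apply, cor, vt, nx]

theorem sq_cor1mp (z : Fin 3 → ℤ) : sq z (cor 1 (-1) 1) = vt (z + Pi.single 0 1) := by
  ext i
  fin_cases i <;> simp [sq_apply, cor, vt]

theorem sq_cor1pp (z : Fin 3 → ℤ) : sq z (cor 1 1 1) = nx (z + Pi.single 0 1) 1 := by
  ext i
  fin_cases i <;> simp [sq_apply, cor, vt, nx]

/-- the inverse of the parametrisation -/
def qs (z : Fin 3 → ℤ) (ξ : E3) : E2 := ![2 * (ξ 0 - z 0) - 1, 2 * (ξ 1 - z 1) - 1]

theorem qs_sq (z : Fin 3 → ℤ) (v : E2) : qs z (sq z v) = v := by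
  ext i
  fin_cases i <;> simp [sq_apply, qs] <;> ring

theorem sq_qs {z : Fin 3 → ℤ} {ξ : E3} (h : ξ ∈ uface z {2}) : sq z (qs z ξ) = ξ := by
  have h2 := h.2 2 (Finset.mem_singleton_self _)
  ext i
  fin_cases i <;> simp [sq_apply, qs, h2]

theorem qs_mem {z : Fin 3 → ℤ} {ξ : E3} (h : ξ ∈ uface z {2}) :
    qs z ξ ∈ closedBall (0 : E2) 1 := by
  refine mem_closedBall_zero_iff.2 ((pi_norm_le_iff_of_nonneg zero_le_one).2 fun i => ?_)
  have a0 := h.1.1 0
  have a1 := h.1.1 1
  have b0 := h.1.2 0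
  have b1 := h.1.2 1
  rw [Real.norm_eq_abs, abs_le]
  fin_cases i <;> simp only [qs] <;> constructor <;> simp <;> linarith

theorem sq_mem (z : Fin 3 → ℤ) {v : E2} (h : v ∈ closedBall (0 : E2) 1) :
    sq z v ∈ uface z {2} := by
  have h1 := fun i => abs_le.1 ((norm_le_pi_norm v i).trans (mem_closedBall_zero_iff.1 h))
  refine ⟨⟨fun i => ?_, fun i => ?_⟩, fun i hi => ?_⟩
  · fin_cases i <;> simp [sq_apply] <;> linarith [(h1 0).1, (h1 1).1]
  · fin_cases i <;> simp [sq_apply] <;> linarith [(h1 0).2, (h1 1).2]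
  · rw [Finset.mem_singleton.1 hi]
    rfl

theorem uface_eq (z : Fin 3 → ℤ) : uface z {2} = sq z '' closedBall 0 1 :=
  Subset.antisymm (fun _ h => ⟨_, qs_mem h, sq_qs h⟩) (image_subset_iff.2 fun _ h => sq_mem z h)

theorem qs_lip (z : Fin 3 → ℤ) : LipschitzWith 2 (qs z) := by
  refine LipschitzWith.of_dist_le_mul fun x y => (dist_pi_le_iff (by positivity)).2 fun i => ?_
  have a0 := abs_le.1 (dist_le_pi_dist x y 0)
  have a1 := abs_le.1 (dist_le_pi_dist x y 1)
  rw [Real.dist_eq, abs_le]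
  fin_cases i <;> simp only [qs] <;> constructor <;> simp <;> linarith [a0.1, a0.2, a1.1, a1.2]

theorem sq_lip (z : Fin 3 → ℤ) : LipschitzWith 1 (sq z) := by
  refine LipschitzWith.of_dist_le_mul fun x y => (dist_pi_le_iff (by positivity)).2 fun i => ?_
  have a0 := abs_le.1 (dist_le_pi_dist x y 0)
  have a1 := abs_le.1 (dist_le_pi_dist x y 1)
  have a2 := dist_nonneg (x := x) (y := y)
  rw [Real.dist_eq, abs_le]
  fin_cases i <;> constructor <;> simp [sq_apply] <;> linarith [a0.1, a0.2, a1.1, a1.2]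

/-- the energy does not see constants -/
theorem en_sub_const {S : Type} [MetricSpace S] [MeasurableSpace S] [BorelSpace S] (k : ℕ) (p : ℝ)
    (h : S → E3) (C : E3) (X : Set S) : En k p (fun x => h x - C) X = En k p h X := by
  simp only [En, lipAt, edist_sub_right]

theorem var_add (f g : ℝ → ℝ) (s : Set ℝ) :
    eVariationOn (fun t => f t + g t) s ≤ eVariationOn f s + eVariationOn g s := by
  refine iSup_le fun ⟨n, u, hu, us⟩ => ?_
  refine le_trans (Finset.sum_le_sum fun i _ => edist_add_add_le _ _ _ _) ?_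
  rw [Finset.sum_add_distrib]
  exact add_le_add (eVariationOn.sum_le hu us) (eVariationOn.sum_le hu us)

theorem var_coord (f : E3 → E3) (x y : E3) (j : Fin 3) :
    segVar (fun u => f u j) x y ≤ segVar f x y := by
  have := (LipschitzWith.eval (α := fun _ : Fin 3 => ℝ) j).lipschitzOnWith.comp_eVariationOn_le
    (g := fun s : ℝ => f (AffineMap.lineMap x y s)) (mapsTo_univ _ (Icc 0 1))
  rwa [ENNReal.coe_one, one_mul] at this

end Fc

open Fc

theorem face : FACE := by
  intro p θ a c η h z hp hθ ha hc hS hn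
  have h1 := hS fun i t ht => by
    rw [mul_div_cancel₀ _ two_ne_zero]
    fin_cases i <;> rcases ht with rfl | rfl
    · have := hn _ 0 (Or.inl ⟨rfl, Or.inr rfl⟩)
      rw [← sq_cor0pp, ← sq_cor0mp] at this
      exact this
    · have := hn _ 0 (Or.inl ⟨rfl, Or.inl rfl⟩)
      rw [← sq_cor0pm, ← sq_cor0mm] at this
      exact this
    · have := hn _ 1 (Or.inr ⟨rfl, Or.inr rfl⟩)
      rw [← sq_cor1pp, ← sq_cor1mp] at this
      exact this
    · have := hn _ 1 (Or.inr ⟨rfl, Or.inl rfl⟩)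
      rw [← sq_cor1pm, ← sq_cor1mm] at this
      exact this
  have hm : MeasurableSet (uface z {2}) := by
    rw [uface_eq]
    exact ((isCompact_closedBall _ _).image (sq_lip z).continuous).measurableSet
  rw [← en_sub_const 2 p _ ![a * (z 0 + 1 / 2), a * (z 1 + 1 / 2), 0]] at h1
  have h2 := EN.en_comp_le (k := 2) (h := fun v : E2 => h (sq z v) -
    (a / 2) • (![v 0, v 1, 0] : E3) - ![a * (z 0 + 1 / 2), a * (z 1 + 1 / 2), 0])
    (one_pos.trans_le hp) measurableSet_closedBall (fun _ => qs_mem) (fun _ => sq_mem z)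
    (fun _ => sq_qs) (fun v _ => qs_sq z v) (qs_lip z).lipschitzOnWith (sq_lip z).lipschitzOnWith
  refine (EN.en_congr hm fun ξ hξ => ?_).trans_le (h2.trans ((mul_le_mul_right h1 _).trans_eq ?_))
  · simp only [Function.comp, sq_qs hξ, sub_sub]
    congr 1
    ext i
    fin_cases i <;> simp [dgs, qs] <;> ring
  · rw [ENNReal.coe_one, one_pow, mul_one, mul_add, ENNReal.coe_ofNat, ← ENNReal.ofReal_ofNat,
      ENNReal.ofReal_rpow_of_pos two_pos, ← ENNReal.ofReal_mul (by positivity), mul_left_comm,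
      ← Real.mul_rpow zero_le_two (by positivity)]
    congr 4
    ring

theorem dev : DEV := by
  intro a g B x y k ha hB
  have hl : ∀ (s : ℝ) (j : Fin 3), B (AffineMap.lineMap x y s) j =
      s * (Pi.single k a : E3) j + B x j := fun s j => by
    rw [AffineMap.lineMap_apply, vadd_eq_add, vsub_eq_sub, map_add, map_smul, hB]
    rfl
  refine ⟨fun j => ?_, ?_⟩
  · have h0 : 0 ≤ (Pi.single k a : E3) j := by
      rw [Pi.single_apply]
      split_ifs
      exacts [ha, le_rfl]
    have h1 := var_add (fun s => s * (Pi.single k a : E3) j + B x j)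
      (fun s => (g (AffineMap.lineMap x y s) - B (AffineMap.lineMap x y s)) j) (Icc 0 1)
    simp only [← hl, Pi.sub_apply, add_sub_cancel] at h1
    refine h1.trans (add_le_add ?_ (var_coord (fun u => g u - B u) x y j))
    have h2 : MonotoneOn (fun s : ℝ => B (AffineMap.lineMap x y s) j) univ := fun s _ t _ h => by
      simp only [hl]
      gcongr
    have h3 := (h2.eVariationOn_eq (mem_univ 0) (mem_univ 1)).le
    rw [univ_inter, hl, hl, one_mul, zero_mul, zero_add, add_sub_cancel_right, Pi.single_apply,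
      apply_ite ENNReal.ofReal, ENNReal.ofReal_zero] at h3
    exact h3
  · refine le_trans ?_ ((eVariationOn.edist_le _ (left_mem_Icc.2 zero_le_one)
      (right_mem_Icc.2 zero_le_one)).trans (var_coord (fun u => g u - B u) x y k))
    rw [edist_dist, Real.dist_eq]
    refine ENNReal.ofReal_le_ofReal (le_trans (le_of_eq ?_) (le_abs_self _))
    have h1 := hl 1 k
    rw [AffineMap.lineMap_apply_one, Pi.single_eq_same, one_mul] at h1
    simp only [Pi.sub_apply, AffineMap.lineMap_apply_zero, AffineMap.lineMap_apply_one]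
    linarith

end P073.Ln
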