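import Vale.Agent.P073Y.Ln.Sk
import Vale.Agent.P073Y.Fi.En

/-!
# The energy on a sharp wire
-/

open Set Metric Topology Filter MeasureTheory
open scoped NNReal ENNReal

namespace P073.Ln

open P073.Top
open P073.Bd (I)

namespace Wr

/-- the parametrisation of the wire -/
noncomputable def gam (z : Fin 3 → ℤ) (s : ℝ) : E3 := ![z 0 + (s + 1) / 2, z 1, z 2]

variable (z : Fin 3 → ℤ)

theorem dist_gam (s t : ℝ) : dist (gam z s) (gam z t) = |s - t| / 2 := by
  have e : gam z s - gam z t = Pi.single 0 ((s - t) / 2) := by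
    ext i
    fin_cases i <;> simp [gam]
    ring
  rw [dist_eq_norm, e, Pi.norm_single, Real.norm_eq_abs, abs_div, abs_two]

theorem gam_neg : gam z (-1) = vt z := by
  ext i
  fin_cases i <;> simp [gam, vt]

theorem gam_one : gam z 1 = nx z 0 := by
  ext i
  fin_cases i <;> simp [gam, vt, nx]

theorem gam_mem {s : ℝ} (hs : s ∈ I) : gam z s ∈ segment ℝ (vt z) (nx z 0) := by
  refine ⟨(1 - s) / 2, (1 + s) / 2, by linarith [hs.2], by linarith [hs.1], by ring, ?_⟩
  ext i
  fin_cases i <;> simp [gam, vt, nx] <;> ring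

theorem mem_uface {ξ : E3} : ξ ∈ uface z {1, 2} ↔ 2 * (ξ 0 - z 0) - 1 ∈ I ∧
    gam z (2 * (ξ 0 - z 0) - 1) = ξ := by
  constructor
  · rintro ⟨⟨h1, h2⟩, h3⟩
    have a1 : (z 0 : ℝ) ≤ ξ 0 := h1 0
    have a2 : ξ 0 ≤ z 0 + 1 := h2 0
    refine ⟨⟨by linarith, by linarith⟩, ?_⟩
    ext i
    fin_cases i <;> simp [gam, h3]
  · rintro ⟨⟨h1, h2⟩, h3⟩
    have a1 : ξ 1 = z 1 := (congrFun h3 1).symm
    have a2 : ξ 2 = z 2 := (congrFun h3 2).symm
    refine ⟨⟨fun i => ?_, fun i => ?_⟩, by simp [a1, a2]⟩ <;> fin_cases i <;> simp [a1, a2] <;>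
      linarith

end Wr

open Wr

theorem wire : WIRE := by
  intro p θ a η g h z hp hθ hθ' ha hη hS hl hr
  have key : ∀ s ∈ I, ∀ t ∈ I, |h (gam z s) 0 - h (gam z t) 0| + |h (gam z s) 1 - h (gam z t) 1| +
      |h (gam z s) 2 - h (gam z t) 2| ≤ (1 + 4 * θ) * a / 2 * |s - t| := fun s hs t ht => by
    have h1 := hS _ (gam_mem z hs) _ (gam_mem z ht)
    have h2 : edist (vt z) (nx z 0) = 1 := by
      rw [← gam_neg, ← gam_one, edist_dist, dist_gam]
      norm_num
    have h3 := h1.trans (mul_le_mul_left (add_le_add (mul_le_mul_right hl _) hη) _)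
    simp only [h2, mul_one, edist_dist, dist_gam, Real.dist_eq] at h3
    rw [← ENNReal.ofReal_add (abs_nonneg _) (abs_nonneg _),
      ← ENNReal.ofReal_add (by positivity) (abs_nonneg _), ← ENNReal.ofReal_mul (by positivity),
      ← ENNReal.ofReal_add (by positivity) (by positivity), ← ENNReal.ofReal_mul (by positivity),
      ENNReal.ofReal_le_ofReal_iff (by positivity)] at h3
    have h4 : 0 ≤ θ * (1 - θ) * a * |s - t| := by
      have : 0 < 1 - θ := by linarith
      positivity
    linarith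
  have hΛ : 0 ≤ (1 + 8 * θ) * a / 2 := by positivity
  have h1 := Fi.Eng.dom_en (g := fun s => h (gam z s) - (a • dgs {1, 2} 0) (gam z s))
    (a := fun s => h (gam z s) 0) (θ := 9 * θ) (Λ := NNReal.mk _ hΛ) hp
    (LipschitzOnWith.of_dist_le_mul fun s hs t ht => by
      have a1 := key s hs t ht
      have a2 : 0 ≤ θ * a * |s - t| := by positivity
      rw [Real.dist_eq, Real.dist_eq, NNReal.coe_mk]
      linarith [abs_nonneg (h (gam z s) 1 - h (gam z t) 1),
        abs_nonneg (h (gam z s) 2 - h (gam z t) 2)])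
    (by
      have a2 : 0 ≤ θ * θ * a := by positivity
      rw [gam_neg, gam_one, NNReal.coe_mk]
      linarith)
    fun t ht s hs => by
      have a1 := key s hs t ht
      have a2 := abs_nonneg (h (gam z s) 1 - h (gam z t) 1)
      have a3 := abs_nonneg (h (gam z s) 2 - h (gam z t) 2)
      have a4 := abs_sub_abs_le_abs_sub ((1 + 8 * θ) * a / 2 * (s - t))
        (h (gam z s) 0 - h (gam z t) 0)
      have a5 : 0 ≤ θ * a * |s - t| := by positivity
      rw [abs_mul, abs_of_nonneg hΛ] at a4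
      rw [edist_dist, edist_dist, NNReal.coe_mk, Real.dist_eq, show (1 + 8 * θ) * a / 2 * s -
        h (gam z s) 0 - ((1 + 8 * θ) * a / 2 * t - h (gam z t) 0) = (1 + 8 * θ) * a / 2 * (s - t) -
          (h (gam z s) 0 - h (gam z t) 0) by ring]
      refine ENNReal.ofReal_le_ofReal ((dist_pi_le_iff (abs_nonneg _)).2 fun i => ?_)
      rw [Real.dist_eq]
      fin_cases i
      · have e : ∀ s, (h (gam z s) - (a • dgs {1, 2} 0) (gam z s)) 0 =
            h (gam z s) 0 - a * (z 0 + (s + 1) / 2) := fun s => by simp [dgs, gam]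
        rw [Fin.zero_eta, e, e]
        have a6 := le_abs_self (h (gam z s) 0 - h (gam z t) 0)
        have a7 := neg_abs_le (h (gam z s) 0 - h (gam z t) 0)
        rcases abs_cases (s - t) with ⟨b, -⟩ | ⟨b, -⟩ <;> rw [b] at a1 a5
        · refine le_trans ?_ (le_abs_self _)
          rw [abs_le]
          constructor <;> linarith
        · refine le_trans ?_ (neg_le_abs _)
          rw [abs_le]
          constructor <;> linarith
      · simp [dgs]
        linarith
      · simp [dgs]
        linarith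
  have h2 := EN.en_comp_le (k := 1) (p := p) (by linarith) (X := uface z {1, 2}) (Y := I)
    (φ := fun ξ => 2 * (ξ 0 - z 0) - 1) (ψ := gam z)
    (h := fun s => h (gam z s) - (a • dgs {1, 2} 0) (gam z s)) (K := 2) (L := 1 / 2)
    measurableSet_Icc (fun ξ hξ => ((mem_uface z).1 hξ).1)
    (fun s hs => (mem_uface z).2 (by
      rw [show 2 * (gam z s 0 - z 0) - 1 = s by simp [gam]; ring]
      exact ⟨hs, rfl⟩))
    (fun ξ hξ => ((mem_uface z).1 hξ).2) (fun s _ => by simp [gam]; ring)
    (LipschitzOnWith.of_dist_le_mul fun x _ y _ => by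
      have a1 := dist_le_pi_dist x y 0
      rw [Real.dist_eq] at a1 ⊢
      rw [show 2 * (x 0 - z 0) - 1 - (2 * (y 0 - z 0) - 1) = 2 * (x 0 - y 0) by ring, abs_mul,
        abs_two, NNReal.coe_ofNat]
      linarith)
    (LipschitzOnWith.of_dist_le_mul fun s _ t _ => by
      rw [dist_gam, Real.dist_eq]
      push_cast
      linarith)
  have hm : MeasurableSet (uface z {1, 2}) := by
    refine measurableSet_Icc.inter (s₂ := {ξ : E3 | ∀ i ∈ ({1, 2} : Finset (Fin 3)), ξ i = z i})
      (IsClosed.measurableSet ?_)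
    simp only [ofPred_forall]
    exact isClosed_iInter fun i => isClosed_iInter fun _ =>
      isClosed_eq (continuous_apply i) continuous_const
  rw [EN.en_congr hm (h' := fun ξ => h ξ - (a • dgs {1, 2} 0) ξ) fun ξ hξ => by
    simp only [Function.comp_apply, ((mem_uface z).1 hξ).2]] at h2
  refine h2.trans ?_
  unfold En
  rw [Nat.cast_one, hausdorffMeasure_real]
  refine (mul_le_mul_right h1 _).trans ?_
  have hp0 : 0 ≤ p := by linarith
  rw [pow_one, ← ENNReal.ofReal_coe_nnreal, ← ENNReal.ofReal_coe_nnreal,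
    ENNReal.ofReal_rpow_of_nonneg (NNReal.coe_nonneg _) hp0, ← ENNReal.ofReal_mul (by positivity),
    ← ENNReal.ofReal_mul (by positivity)]
  refine ENNReal.ofReal_le_ofReal ?_
  push_cast
  have a1 : (2 : ℝ) ^ p * (2 * ((1 + 8 * θ) * a / 2)) ^ p ≤ (4 * a) ^ p := by
    rw [← Real.mul_rpow (by norm_num) (by positivity)]
    exact Real.rpow_le_rpow (by positivity) (by nlinarith) hp0
  have a2 : (10 : ℝ) ≤ 10 ^ p := by simpa using Real.rpow_le_rpow_of_exponent_le (by norm_num) hp
  have a3 : 0 ≤ (4 * a) ^ p := by positivity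
  rw [show 40 * a = 10 * (4 * a) by ring, Real.mul_rpow (x := 10) (by norm_num) (by positivity)]
  nlinarith [mul_le_mul_of_nonneg_left a1 hθ.le, mul_le_mul_of_nonneg_right a2 (mul_nonneg hθ.le a3)]

end P073.Ln
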