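import Vale.Agent.P073Y.Ln.Rows
import Vale.Agent.P073Y.Ln.Wire
import Vale.Agent.P073Y.Ln.Face

/-!
# Most bottom faces are sharp
-/

open Set Metric
open scoped NNReal ENNReal

namespace P073.Ln

open P073.Top

namespace Li

/-- a good wire -/
def Ok (θ a : ℝ) (g h : E3 → E3) {ι : Type} (Γ : ι → Set E3) (z : Fin 3 → ℤ) (k : Fin 3) : Prop :=
  (∃ i, g '' segment ℝ (vt z) (nx z k) ⊆ Γ i) ∧
    lat g (vt z) (nx z k) ≤ ENNReal.ofReal ((1 + θ) * a) ∧
    (1 - θ) * a ≤ h (nx z k) k - h (vt z) k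

open Classical in
/-- the count for one side of the faces -/
theorem side {p θ ϑ c D a o : ℝ} {η : ℝ≥0∞} {R : ℕ} {I : Finset (Fin 3)} {g h : E3 → E3}
    {ι : Type} {Γ : ι → Set E3} {W V : Finset (Fin 3 → ℤ)} {X : (Fin 3 → ℤ) → ℝ≥0∞} {k : Fin 3}
    (w : Fin 3 → ℤ) (hθ : 0 < θ) (hθ1 : θ ≤ 1) (hϑ : 0 ≤ ϑ) (hϑ1 : ϑ ≤ 1) (hD : 0 ≤ D) (ha : 0 < a)
    (hR : 1 ≤ R) (hk : k ∉ I) (hk2 : k ≠ 2) (hS : Sharp p θ ϑ c D a η I g h W Γ)
    (hX : ∀ z ∈ W, Dev a g (vt z) (nx z k) k (X z))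
    (hw : ∀ z, vt (z + w) ∈ uface z I) (hw1 : ∀ i, |w i| ≤ 1) (hw0 : ∀ i ∈ I, w i = 0)
    (hV : ∀ z ∈ V, ((∀ z', (∀ i, |z' i - z i| ≤ R) → (∀ i ∈ I, z' i = z i) → z' ∈ W) ∧
      ∀ x ∈ uface z I, dist (g x) (g (vt z)) ≤ o) ∧
      ∃ i, closedBall (g (vt z)) (2 * R * a + o) ⊆ Γ i) :
    ENNReal.ofReal (θ * a) * ((V.filter fun z => ¬ Ok θ a g h Γ (z + w) k).card : ℝ≥0∞) ≤
      9 * ∑ z ∈ W, X z + W.card * (ENNReal.ofReal (ϑ * a + 2 * D / R) + η) := by
  refine le_trans (mul_le_mul_right ?_ _) (rows Γ W (V.image fun z => z + w) X k hθ hθ1 hϑ hϑ1 hD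
    ha hR hk hk2 hS hX ?_)
  · refine Nat.cast_le.2 (Finset.card_le_card_of_injOn (fun z => z + w) (fun z hz => ?_)
      fun x _ y _ e => add_right_cancel e)
    obtain ⟨h1, h2⟩ := Finset.mem_filter.1 hz
    exact Finset.mem_filter.2 ⟨Finset.mem_image_of_mem _ h1, h2⟩
  · intro z' hz'
    obtain ⟨z, hz, rfl⟩ := Finset.mem_image.1 hz'
    obtain ⟨⟨h1, h2⟩, i, hi⟩ := hV z hz
    refine ⟨fun j hj => h1 _ (fun l => ?_) fun l hl => ?_, i, Subset.trans ?_ hi⟩
    · have := abs_le.1 (hw1 l)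
      have hj' := abs_lt.1 hj
      by_cases e : l = k
      · subst e
        simp only [Pi.add_apply, Pi.smul_apply, Pi.single_eq_same, smul_eq_mul, mul_one, abs_le]
        constructor <;> omega
      · simp only [Pi.add_apply, Pi.smul_apply, Pi.single_eq_of_ne e, smul_eq_mul, mul_zero, abs_le]
        constructor <;> omega
    · have e : l ≠ k := fun e => hk (e ▸ hl)
      simp [e, hw0 l hl]
    · exact closedBall_subset_closedBall' (add_le_add le_rfl (h2 _ (hw z)))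

theorem single_le (l i : Fin 3) : |(Pi.single l 1 : Fin 3 → ℤ) i| ≤ 1 := by
  by_cases e : i = l
  · subst e; simp
  · simp [e]

end Li

open Li Rw Fc

theorem line : LINE := by
  classical
  intro p θ ϑ c D a o η R I g h ι Γ W V X hp hθ hθ' hϑ hϑ1 hc hD ha ho hR hη hI hS hX hV
  have hθ1 : θ ≤ 1 := by linarith
  have hVW : ∀ z ∈ V, z ∈ W := fun z hz => (hV z hz).1 z (fun i => by simp) fun _ _ => rfl
  set V₀ := V.filter fun z => ∃ i, closedBall (g (vt z)) (2 * R * a + o) ⊆ Γ i with hV₀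
  set N := V.filter fun z => ∀ i, ¬ closedBall (g (vt z)) (2 * R * a + o) ⊆ Γ i with hN
  set E := (W.card : ℝ≥0∞) * (ENNReal.ofReal (ϑ * a + 2 * D / R) + η) with hE
  have hV0 : ∀ z ∈ V₀, ((∀ z', (∀ i, |z' i - z i| ≤ R) → (∀ i ∈ I, z' i = z i) → z' ∈ W) ∧
      ∀ x ∈ uface z I, dist (g x) (g (vt z)) ≤ o) ∧
      ∃ i, closedBall (g (vt z)) (2 * R * a + o) ⊆ Γ i := fun z hz =>
    ⟨hV z (Finset.mem_filter.1 hz).1, (Finset.mem_filter.1 hz).2⟩
  have loc : ∀ z ∈ V₀, ∃ i, g '' uface z I ⊆ Γ i := by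
    intro z hz
    obtain ⟨⟨-, h2⟩, i, hi⟩ := hV0 z hz
    refine ⟨i, ?_⟩
    rintro _ ⟨x, hx, rfl⟩
    refine hi (mem_closedBall.2 ((h2 x hx).trans ?_))
    have : 0 ≤ 2 * R * a := by positivity
    linarith
  have out : ∀ z ∈ V, z ∉ N → z ∈ V₀ := by
    intro z hz hn
    refine Finset.mem_filter.2 ⟨hz, ?_⟩
    by_contra h1
    exact hn (Finset.mem_filter.2 ⟨hz, fun i hi => h1 ⟨i, hi⟩⟩)
  have up : ∀ b : ℝ, 0 ≤ b → b ≤ c + 40 → ENNReal.ofReal (θ * (b * a) ^ p) ≤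
      ENNReal.ofReal (θ * ((c + 40) * a) ^ p) := fun b hb hb' => ENNReal.ofReal_le_ofReal
    (mul_le_mul_of_nonneg_left (Real.rpow_le_rpow (by positivity)
      (mul_le_mul_of_nonneg_right hb' ha.le) (by linarith)) hθ.le)
  rcases hI with rfl | rfl
  · have n0 : (0 : Fin 3) ∉ ({2} : Finset (Fin 3)) := by decide
    have n1 : (1 : Fin 3) ∉ ({2} : Finset (Fin 3)) := by decide
    have s1 := side 0 hθ hθ1 hϑ hϑ1 hD ha hR n0 (by decide) hS (fun z hz => hX z hz 0 n0)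
      (fun z => by rw [add_zero]; exact vt_mem z _) (fun i => by simp) (fun _ _ => rfl) hV0
    have s2 := side (Pi.single 1 1) hθ hθ1 hϑ hϑ1 hD ha hR n0 (by decide) hS
      (fun z hz => hX z hz 0 n0) (fun z => step_mem z n1) (single_le 1)
      (fun i hi => Pi.single_eq_of_ne (ne_of_mem_of_not_mem hi n1) _) hV0
    have s3 := side 0 hθ hθ1 hϑ hϑ1 hD ha hR n1 (by decide) hS (fun z hz => hX z hz 1 n1)
      (fun z => by rw [add_zero]; exact vt_mem z _) (fun i => by simp) (fun _ _ => rfl) hV0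
    have s4 := side (Pi.single 0 1) hθ hθ1 hϑ hϑ1 hD ha hR n1 (by decide) hS
      (fun z hz => hX z hz 1 n1) (fun z => step_mem z n0) (single_le 0)
      (fun i hi => Pi.single_eq_of_ne (ne_of_mem_of_not_mem hi n0) _) hV0
    set A₁ := V₀.filter fun z => ¬ Ok θ a g h Γ (z + 0) 0 with hA₁
    set A₂ := V₀.filter fun z => ¬ Ok θ a g h Γ (z + Pi.single 1 1) 0 with hA₂
    set A₃ := V₀.filter fun z => ¬ Ok θ a g h Γ (z + 0) 1 with hA₃
    set A₄ := V₀.filter fun z => ¬ Ok θ a g h Γ (z + Pi.single 0 1) 1 with hA₄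
    refine ⟨V₀.filter fun z => Ok θ a g h Γ z 0 ∧ Ok θ a g h Γ (z + Pi.single 1 1) 0 ∧
      Ok θ a g h Γ z 1 ∧ Ok θ a g h Γ (z + Pi.single 0 1) 1,
      (Finset.filter_subset _ _).trans (Finset.filter_subset _ _), fun z hz => ?_, ?_⟩
    · obtain ⟨hz0, o1, o2, o3, o4⟩ := Finset.mem_filter.1 hz
      obtain ⟨i, hi⟩ := loc z hz0
      refine ⟨⟨i, hi⟩, ?_⟩
      have e : (1 + θ) * (2 * (a / 2)) = (1 + θ) * a := by ring
      have hF := hS.face rfl z (hVW z (Finset.mem_filter.1 hz0).1) i hi (by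
        intro k t ht
        rw [e]
        obtain rfl | rfl : k = 0 ∨ k = 1 := by omega
        all_goals rcases ht with rfl | rfl
        · rw [sq_cor0mp, sq_cor0pp]; exact o2.2.1
        · rw [sq_cor0mm, sq_cor0pm]; exact o1.2.1
        · rw [sq_cor1mp, sq_cor1pp]; exact o4.2.1
        · rw [sq_cor1mm, sq_cor1pm]; exact o3.2.1)
      refine (face z hp hθ ha hc hF ?_).trans (add_le_add (up c hc (by linarith)) le_rfl)
      rintro z' k (⟨rfl, rfl | rfl⟩ | ⟨rfl, rfl | rfl⟩)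
      exacts [o1.2.2, o2.2.2, o3.2.2, o4.2.2]
    · have sub : V \ V₀.filter (fun z => Ok θ a g h Γ z 0 ∧ Ok θ a g h Γ (z + Pi.single 1 1) 0 ∧
          Ok θ a g h Γ z 1 ∧ Ok θ a g h Γ (z + Pi.single 0 1) 1) ⊆ N ∪ A₁ ∪ A₂ ∪ A₃ ∪ A₄ := by
        intro z hz
        obtain ⟨hz1, hz2⟩ := Finset.mem_sdiff.1 hz
        by_contra hn
        simp only [Finset.mem_union, not_or] at hn
        obtain ⟨⟨⟨⟨m0, m1⟩, m2⟩, m3⟩, m4⟩ := hn
        have z0 := out z hz1 m0
        refine hz2 (Finset.mem_filter.2 ⟨z0, ?_, ?_, ?_, ?_⟩) <;> by_contra hc'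
        · exact m1 (Finset.mem_filter.2 ⟨z0, by rwa [add_zero]⟩)
        · exact m2 (Finset.mem_filter.2 ⟨z0, hc'⟩)
        · exact m3 (Finset.mem_filter.2 ⟨z0, by rwa [add_zero]⟩)
        · exact m4 (Finset.mem_filter.2 ⟨z0, hc'⟩)
      have c1 := Finset.card_le_card sub
      have c2 := Finset.card_union_le (N ∪ A₁ ∪ A₂ ∪ A₃) A₄
      have c3 := Finset.card_union_le (N ∪ A₁ ∪ A₂) A₃
      have c4 := Finset.card_union_le (N ∪ A₁) A₂
      have c5 := Finset.card_union_le N A₁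
      refine le_trans (mul_le_mul_right (Nat.cast_le.2 (c1.trans (by omega :
        _ ≤ N.card + (A₁.card + A₂.card + A₃.card + A₄.card)))) _) ?_
      have e : (({2} : Finset (Fin 3))ᶜ) = {0, 1} := by decide
      rw [e, Nat.cast_add, mul_add, add_assoc (ENNReal.ofReal (θ * a) * N.card)]
      refine add_le_add le_rfl ?_
      push_cast
      rw [mul_add, mul_add, mul_add]
      refine (add_le_add (add_le_add (add_le_add s1 s2) s3) s4).trans (le_of_eq ?_)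
      simp only [Finset.sum_pair (show (0 : Fin 3) ≠ 1 by decide), Finset.sum_add_distrib]
      ring
  · have n0 : (0 : Fin 3) ∉ ({1, 2} : Finset (Fin 3)) := by decide
    have s1 := side 0 hθ hθ1 hϑ hϑ1 hD ha hR n0 (by decide) hS (fun z hz => hX z hz 0 n0)
      (fun z => by rw [add_zero]; exact vt_mem z _) (fun i => by simp) (fun _ _ => rfl) hV0
    set A₁ := V₀.filter fun z => ¬ Ok θ a g h Γ (z + 0) 0 with hA₁
    refine ⟨V₀.filter fun z => Ok θ a g h Γ z 0,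
      (Finset.filter_subset _ _).trans (Finset.filter_subset _ _), fun z hz => ?_, ?_⟩
    · obtain ⟨hz0, ⟨i, hi⟩, o2, o3⟩ := Finset.mem_filter.1 hz
      refine ⟨loc z hz0, ?_⟩
      have hE' := (hS.wire z (hVW z (Finset.mem_filter.1 hz0).1) 0 n0 i hi).1
      exact (wire z hp hθ hθ' ha hη hE' o2 o3).trans
        ((up 40 (by norm_num) (by linarith)).trans le_self_add)
    · have sub : V \ V₀.filter (fun z => Ok θ a g h Γ z 0) ⊆ N ∪ A₁ := by
        intro z hz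
        obtain ⟨hz1, hz2⟩ := Finset.mem_sdiff.1 hz
        by_contra hn
        simp only [Finset.mem_union, not_or] at hn
        have z0 := out z hz1 hn.1
        refine hz2 (Finset.mem_filter.2 ⟨z0, ?_⟩)
        by_contra hc'
        exact hn.2 (Finset.mem_filter.2 ⟨z0, by rwa [add_zero]⟩)
      refine le_trans (mul_le_mul_right (Nat.cast_le.2 ((Finset.card_le_card sub).trans
        (Finset.card_union_le N A₁))) _) ?_
      have e : (({1, 2} : Finset (Fin 3))ᶜ) = {0} := by decide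
      rw [e, add_assoc, Nat.cast_add, mul_add]
      refine add_le_add le_rfl (s1.trans (add_le_add ?_ ?_))
      · simp only [Finset.sum_singleton]
        exact mul_le_mul_left (by norm_num) _
      · rw [mul_assoc]
        exact le_mul_of_one_le_left zero_le (by norm_num)

end P073.Ln
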