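import Vale.Agent.P073Y.Ln.Sk

/-!
# The row estimate for numbers
-/

open Set Finset

namespace P073.Ln

namespace Rw

/-- telescoping along a window -/
theorem tele (e : Fin 3 → ℤ) (u : (Fin 3 → ℤ) → ℝ) (z : Fin 3 → ℤ) (n : ℕ) :
    ∑ i ∈ range n, (u (z + (i : ℤ) • e + e) - u (z + (i : ℤ) • e)) = u (z + (n : ℤ) • e) - u z := by
  have := Finset.sum_range_sub (fun i : ℕ => u (z + (i : ℤ) • e)) n
  simp only [Nat.cast_zero, zero_smul, add_zero] at this
  rw [← this]
  refine Finset.sum_congr rfl fun i _ => ?_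
  rw [Nat.cast_succ, add_smul, one_smul, add_assoc]

/-- a sum over translates -/
theorem shift_le {A S : Finset (Fin 3 → ℤ)} {f : (Fin 3 → ℤ) → ℝ} (w : Fin 3 → ℤ)
    (hA : ∀ z ∈ A, z + w ∈ S) (hf : ∀ z ∈ S, 0 ≤ f z) : ∑ z ∈ A, f (z + w) ≤ ∑ z ∈ S, f z := by
  classical
  rw [← Finset.sum_image (s := A) (g := fun z => z + w) (f := f)
    (fun x _ y _ h => add_right_cancel h)]
  refine Finset.sum_le_sum_of_subset_of_nonneg ?_ fun z hz _ => hf z hz
  intro z hz
  obtain ⟨y, hy, rfl⟩ := Finset.mem_image.1 hz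
  exact hA y hy

end Rw

open Rw

theorem row : ROW := by
  classical
  intro θ ϑ D a η R e u v X S V hθ hϑ hϑ1 hD ha hη hR hS hV
  set d : (Fin 3 → ℤ) → ℝ := fun z => (1 + ϑ) * (a + 2 * X z) + η - (u (z + e) - u z) with hd
  have d0 : ∀ z ∈ S, 0 ≤ d z := fun z hz => sub_nonneg.2 (hS z hz).2.2.1
  set U := S.filter fun z => ∀ i ∈ range R, z + (i : ℤ) • e ∈ S with hU
  set F := V.filter fun z => u (z + e) - u z < (1 - θ) * a with hF
  have hR0 : (0 : ℝ) < R := by exact_mod_cast hR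
  have hVS : ∀ z ∈ V, z ∈ S := fun z hz => by simpa using hV z hz 0 (by simpa using Nat.lt_of_succ_le hR)
  have h1 : ∀ z ∈ F, θ * a ≤ d z := by
    intro z hz
    obtain ⟨hz1, hz2⟩ := Finset.mem_filter.1 hz
    have := (hS z (hVS z hz1)).1
    have h3 : 0 ≤ ϑ * (a + 2 * X z) := by positivity
    simp only [hd]
    nlinarith
  have h2 : ∀ z ∈ U, ∑ i ∈ range R, d (z + (i : ℤ) • e) ≤
      5 * ∑ i ∈ range R, X (z + (i : ℤ) • e) + (R * (ϑ * a + η) + 2 * D) := by
    intro z hz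
    obtain ⟨hz1, hz2⟩ := Finset.mem_filter.1 hz
    have a1 : ∑ i ∈ range R, d (z + (i : ℤ) • e) ≤ ∑ i ∈ range R, (5 * X (z + (i : ℤ) • e) +
        (ϑ * a + η) + (v (z + (i : ℤ) • e + e) - v (z + (i : ℤ) • e)) -
        (u (z + (i : ℤ) • e + e) - u (z + (i : ℤ) • e))) := by
      refine Finset.sum_le_sum fun i hi => ?_
      obtain ⟨b1, b2, -⟩ := hS _ (hz2 i hi)
      have := mul_le_mul_of_nonneg_right hϑ1 b1
      simp only [hd]
      nlinarith
    replace a1 := a1.trans (le_of_eq (by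
      rw [Finset.sum_sub_distrib, Finset.sum_add_distrib, Finset.sum_add_distrib, tele, tele,
        ← Finset.mul_sum, Finset.sum_const, card_range, nsmul_eq_mul]))
    have a2 := abs_le.1 (hS z hz1).2.2.2.1
    obtain ⟨n, rfl⟩ : ∃ n, R = n + 1 := ⟨R - 1, by omega⟩
    have a3 := abs_le.1 (hS _ (hz2 n (by simp))).2.2.2.2
    rw [add_assoc, ← add_one_zsmul, ← Nat.cast_succ] at a3
    linarith [a2.1, a2.2, a3.1, a3.2]
  have h3 : ∀ i ∈ range R, ∑ z ∈ F, d z ≤ ∑ z ∈ U, d (z + (i : ℤ) • e) := by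
    intro i hi
    have hi' := Finset.mem_range.1 hi
    have := shift_le (A := F) (S := U) (f := fun z => d (z + (i : ℤ) • e)) (-((i : ℤ) • e)) ?_ ?_
    · simpa using this
    · intro z hz
      have hz1 := (Finset.mem_filter.1 hz).1
      refine Finset.mem_filter.2 ⟨?_, fun l hl => ?_⟩
      · rw [← neg_smul]
        exact hV z hz1 _ (by rw [abs_neg, Nat.abs_cast]; exact_mod_cast hi')
      · have hl' := Finset.mem_range.1 hl
        rw [← neg_smul, add_assoc, ← add_smul]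
        exact hV z hz1 _ (by rw [abs_lt]; constructor <;> omega)
    · intro z hz
      exact d0 _ ((Finset.mem_filter.1 hz).2 i hi)
  have h4 : ∀ i ∈ range R, ∑ z ∈ U, X (z + (i : ℤ) • e) ≤ ∑ z ∈ S, X z := fun i hi =>
    shift_le _ (fun z hz => (Finset.mem_filter.1 hz).2 i hi) fun z hz => (hS z hz).1
  have h5 : (R : ℝ) * (θ * a * F.card) ≤
      5 * (R * ∑ z ∈ S, X z) + S.card * (R * (ϑ * a + η) + 2 * D) := by
    have b1 : θ * a * F.card ≤ ∑ z ∈ F, d z := by
      have := Finset.card_nsmul_le_sum F d _ h1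
      rwa [nsmul_eq_mul, mul_comm] at this
    have b2 := Finset.card_nsmul_le_sum (range R) _ _ fun i hi => b1.trans (h3 i hi)
    rw [card_range, nsmul_eq_mul, Finset.sum_comm] at b2
    have b3 := b2.trans (Finset.sum_le_sum h2)
    rw [Finset.sum_add_distrib, ← Finset.mul_sum, Finset.sum_comm, Finset.sum_const,
      nsmul_eq_mul] at b3
    have b4 := Finset.sum_le_card_nsmul (range R) _ _ h4
    rw [card_range, nsmul_eq_mul] at b4
    have b5 : (U.card : ℝ) ≤ S.card := by exact_mod_cast Finset.card_filter_le _ _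
    have b6 : 0 ≤ R * (ϑ * a + η) + 2 * D := by positivity
    nlinarith [mul_le_mul_of_nonneg_right b5 b6]
  refine le_of_mul_le_mul_left (h5.trans (le_of_eq ?_)) hR0
  field_simp

end P073.Ln
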