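import Vale.Agent.P073Y.Ln.Row

/-!
# Most wires in a given direction are sharp
-/

open Set Metric
open scoped NNReal ENNReal

namespace P073.Ln

open P073.Top

namespace Rw

theorem edist_le_segVar {T : Type} [PseudoEMetricSpace T] (f : E3 → T) {x y u w : E3}
    (hu : u ∈ segment ℝ x y) (hw : w ∈ segment ℝ x y) : edist (f u) (f w) ≤ segVar f x y := by
  rw [segment_eq_image_lineMap] at hu hw
  obtain ⟨s, hs, rfl⟩ := hu
  obtain ⟨t, ht, rfl⟩ := hw
  exact eVariationOn.edist_le (fun s : ℝ => f (AffineMap.lineMap x y s)) hs ht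

theorem dist_le {a : ℝ} {g : E3 → E3} {x y u w : E3} {k : Fin 3} {X : ℝ≥0∞}
    (h : Dev a g x y k X) (ha : 0 ≤ a) (hX : X ≠ ⊤) (hu : u ∈ segment ℝ x y)
    (hw : w ∈ segment ℝ x y) : dist (g u) (g w) ≤ a + X.toReal := by
  refine (dist_pi_le_iff (by positivity)).2 fun j => ?_
  have h1 := (edist_le_segVar (fun u => g u j) hu hw).trans (h.var j)
  have h2 : (if j = k then ENNReal.ofReal a else 0) + X ≤ ENNReal.ofReal (a + X.toReal) := by
    rw [ENNReal.ofReal_add ha ENNReal.toReal_nonneg, ENNReal.ofReal_toReal hX]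
    refine add_le_add ?_ le_rfl
    split_ifs <;> simp
  exact (edist_le_ofReal (by positivity)).1 (h1.trans h2)

theorem lat_le {a : ℝ} {g : E3 → E3} {x y : E3} {k : Fin 3} {X : ℝ≥0∞}
    (h : Dev a g x y k X) (ha : 0 ≤ a) (hX : X ≠ ⊤) :
    lat g x y ≤ ENNReal.ofReal (a + 2 * X.toReal) := by
  rw [ENNReal.ofReal_add ha (by positivity), two_mul,
    ENNReal.ofReal_add ENNReal.toReal_nonneg ENNReal.toReal_nonneg, ENNReal.ofReal_toReal hX]
  refine (add_le_add (h.var 0) (h.var 1)).trans ?_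
  rw [add_add_add_comm]
  refine add_le_add ?_ le_rfl
  fin_cases k <;> simp

theorem vt_mem (z : Fin 3 → ℤ) (I : Finset (Fin 3)) : vt z ∈ uface z I :=
  ⟨⟨fun _ => le_rfl, fun i => by simp [vt]⟩, fun _ _ => rfl⟩

theorem step_mem (z : Fin 3 → ℤ) {I : Finset (Fin 3)} {k : Fin 3} (hk : k ∉ I) :
    vt (z + Pi.single k 1) ∈ uface z I := by
  refine ⟨⟨fun i => ?_, fun i => ?_⟩, fun i hi => ?_⟩
  · by_cases e : i = k
    · subst e; simp [vt]
    · simp [vt, e]
  · by_cases e : i = k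
    · subst e; simp [vt]
    · simp [vt, e]
  · have e : i ≠ k := fun e => hk (e ▸ hi)
    simp [vt, e]

/-- the images of the wires of a window stay close -/
theorem window {a : ℝ} {g : E3 → E3} {k : Fin 3} {x : (Fin 3 → ℤ) → ℝ} {z : Fin 3 → ℤ} {R : ℕ}
    (H : ∀ j : ℤ, |j| < R → ∀ u ∈ segment ℝ (vt (z + j • Pi.single k 1))
      (nx (z + j • Pi.single k 1) k), ∀ w ∈ segment ℝ (vt (z + j • Pi.single k 1))
      (nx (z + j • Pi.single k 1) k), dist (g u) (g w) ≤ a + x (z + j • Pi.single k 1)) :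
    (∀ n : ℕ, n < R → ∀ u ∈ segment ℝ (vt (z + (n : ℤ) • Pi.single k 1))
      (nx (z + (n : ℤ) • Pi.single k 1) k), dist (g u) (g (vt z)) ≤
        ∑ i ∈ Finset.range (n + 1), (a + x (z + (i : ℤ) • Pi.single k 1))) ∧
    ∀ n : ℕ, n + 1 < R → ∀ u ∈ segment ℝ (vt (z + (-(n + 1 : ℕ) : ℤ) • Pi.single k 1))
      (nx (z + (-(n + 1 : ℕ) : ℤ) • Pi.single k 1) k), dist (g u) (g (vt z)) ≤
        ∑ i ∈ Finset.range (n + 1), (a + x (z + (-(i + 1 : ℕ) : ℤ) • Pi.single k 1)) := by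
  constructor
  · intro n
    induction n with
    | zero =>
      intro hn u hu
      have := H 0 (by simpa using hn) u (by simpa using hu) _ (left_mem_segment ℝ _ _)
      simpa using this
    | succ n ih =>
      intro hn u hu
      have h1 := ih (by omega) _ (right_mem_segment ℝ _ _)
      have h2 := H ((n + 1 : ℕ) : ℤ) (by rw [Nat.abs_cast]; exact_mod_cast hn) u hu _
        (left_mem_segment ℝ _ _)
      have e : nx (z + (n : ℤ) • Pi.single k 1) k = vt (z + ((n + 1 : ℕ) : ℤ) • Pi.single k 1) := by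
        rw [nx, Nat.cast_succ, add_smul, one_smul, add_assoc]
      rw [e] at h1
      rw [Finset.sum_range_succ]
      linarith [dist_triangle (g u) (g (vt (z + ((n + 1 : ℕ) : ℤ) • Pi.single k 1))) (g (vt z))]
  · intro n
    induction n with
    | zero =>
      intro hn u hu
      have h2 := H (-(0 + 1 : ℕ) : ℤ) (by rw [abs_neg, Nat.abs_cast]; exact_mod_cast hn) u hu _
        (right_mem_segment ℝ _ _)
      have e : nx (z + (-(0 + 1 : ℕ) : ℤ) • Pi.single k 1) k = vt z := by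
        rw [nx]; simp
      rw [e] at h2
      rw [Finset.sum_range_one]
      exact h2
    | succ n ih =>
      intro hn u hu
      have h1 := ih (by omega) _ (left_mem_segment ℝ _ _)
      have h2 := H (-(n + 1 + 1 : ℕ) : ℤ) (by rw [abs_neg, Nat.abs_cast]; exact_mod_cast hn) u hu _
        (right_mem_segment ℝ _ _)
      have e : nx (z + (-(n + 1 + 1 : ℕ) : ℤ) • Pi.single k 1) k =
          vt (z + (-(n + 1 : ℕ) : ℤ) • Pi.single k 1) := by
        rw [nx, add_assoc, ← add_one_zsmul]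
        congr 3
      rw [e] at h2
      rw [Finset.sum_range_succ]
      linarith [dist_triangle (g u) (g (vt (z + (-(n + 1 : ℕ) : ℤ) • Pi.single k 1))) (g (vt z))]

/-- the number of windows with a large sum -/
theorem heavy {V W : Finset (Fin 3 → ℤ)} {x : (Fin 3 → ℤ) → ℝ} {a : ℝ} {R n : ℕ}
    (w : ℕ → Fin 3 → ℤ) (hR : 1 ≤ R) (hn : n ≤ R) (hx : ∀ z ∈ W, 0 ≤ x z)
    (hV : ∀ z ∈ V, (∀ i < n, z + w i ∈ W) ∧ R * a ≤ ∑ i ∈ Finset.range n, x (z + w i)) :
    a * V.card ≤ ∑ z ∈ W, x z := by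
  have hR0 : (0 : ℝ) < R := by exact_mod_cast hR
  have h1 := Finset.card_nsmul_le_sum V _ _ fun z hz => (hV z hz).2
  rw [Finset.sum_comm, nsmul_eq_mul] at h1
  have h2 := Finset.sum_le_card_nsmul (Finset.range n) (fun i => ∑ z ∈ V, x (z + w i)) _
    fun i hi => shift_le (w i) (fun z hz => (hV z hz).1 i (Finset.mem_range.1 hi)) hx
  rw [Finset.card_range, nsmul_eq_mul] at h2
  have h3 : (n : ℝ) ≤ R := by exact_mod_cast hn
  have h4 := mul_le_mul_of_nonneg_right h3 (Finset.sum_nonneg hx)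
  refine le_of_mul_le_mul_left ?_ hR0
  nlinarith

end Rw

open Rw

theorem rows : ROWS := by
  classical
  intro p θ ϑ c D a η R I g h ι Γ W V X k hθ hθ1 hϑ hϑ1 hD ha hR hkI hk2 hS hX hV
  have hVW : ∀ z ∈ V, z ∈ W := fun z hz => by
    simpa using (hV z hz).1 0 (by simpa using Nat.lt_of_succ_le hR)
  rcases V.eq_empty_or_nonempty with rfl | ⟨z₀, hz₀⟩
  · simp
  have hW0 : (W.card : ℝ≥0∞) ≠ 0 := by
    exact_mod_cast (Finset.card_pos.2 ⟨z₀, hVW z₀ hz₀⟩).ne'
  by_cases hη : η = ⊤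
  · simp [hη, ENNReal.mul_top hW0]
  by_cases hXt : ∑ z ∈ W, X z = ⊤
  · simp [hXt]
  have hX' : ∀ z ∈ W, X z ≠ ⊤ := fun z hz =>
    ne_top_of_le_ne_top hXt (Finset.single_le_sum (f := X) (fun _ _ => zero_le) hz)
  set x : (Fin 3 → ℤ) → ℝ := fun z => (X z).toReal with hx
  have x0 : ∀ z, 0 ≤ x z := fun z => ENNReal.toReal_nonneg
  set e : Fin 3 → ℤ := Pi.single k 1 with he
  set S := W.filter fun z => ∃ i, g '' segment ℝ (vt z) (nx z k) ⊆ Γ i with hSd
  set A := V.filter fun z => R * a ≤ ∑ i ∈ Finset.range R, x (z + (i : ℤ) • e) with hA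
  set B := V.filter fun z => R * a ≤ ∑ i ∈ Finset.range (R - 1), x (z + (-(i + 1 : ℕ) : ℤ) • e)
    with hB
  set C := V.filter fun z => θ * a ≤ 2 * x z with hC
  set V₁ := V.filter fun z => z ∉ A ∧ z ∉ B with hV₁
  have cA : a * A.card ≤ ∑ z ∈ W, x z := heavy (fun i => (i : ℤ) • e) hR le_rfl (fun z _ => x0 z)
    fun z hz => ⟨fun i hi => (hV z (Finset.mem_filter.1 hz).1).1 _
      (by rw [Nat.abs_cast]; exact_mod_cast hi), (Finset.mem_filter.1 hz).2⟩
  have cB : a * B.card ≤ ∑ z ∈ W, x z := heavy (fun i => (-(i + 1 : ℕ) : ℤ) • e) hR (Nat.sub_le R 1)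
    (fun z _ => x0 z) fun z hz => ⟨fun i hi => (hV z (Finset.mem_filter.1 hz).1).1 _
      (by rw [abs_neg, Nat.abs_cast]; omega), (Finset.mem_filter.1 hz).2⟩
  have cC : θ * a * C.card ≤ 2 * ∑ z ∈ W, x z := by
    have h1 := Finset.card_nsmul_le_sum C _ _ fun z hz => (Finset.mem_filter.1 hz).2
    rw [nsmul_eq_mul, ← Finset.mul_sum] at h1
    have h2 : ∑ z ∈ C, x z ≤ ∑ z ∈ W, x z := Finset.sum_le_sum_of_subset_of_nonneg
      (fun z hz => hVW z (Finset.mem_filter.1 hz).1) fun z _ _ => x0 z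
    linarith
  have loc : ∀ z ∈ V₁, ∀ j : ℤ, |j| < R → z + j • e ∈ S := by
    intro z hz j hj
    obtain ⟨hz1, hzA, hzB⟩ := Finset.mem_filter.1 hz
    obtain ⟨hw, i, hi⟩ := hV z hz1
    have a1 := not_le.1 fun h => hzA (Finset.mem_filter.2 ⟨hz1, h⟩)
    have a2 := not_le.1 fun h => hzB (Finset.mem_filter.2 ⟨hz1, h⟩)
    obtain ⟨w1, w2⟩ := window (a := a) (g := g) (k := k) (x := x) (z := z) (R := R)
      fun j hj u hu w hw' => dist_le (hX _ (hw j hj)) ha.le (hX' _ (hw j hj)) hu hw'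
    refine Finset.mem_filter.2 ⟨hw j hj, i, ?_⟩
    rintro _ ⟨u, hu, rfl⟩
    refine hi (mem_closedBall.2 ?_)
    obtain ⟨n, rfl | rfl⟩ : ∃ n : ℕ, j = n ∨ j = -(n + 1 : ℕ) := by
      rcases j with n | n
      · exact ⟨n, Or.inl rfl⟩
      · exact ⟨n, Or.inr rfl⟩
    · have hn : n < R := by rw [Nat.abs_cast] at hj; exact_mod_cast hj
      refine (w1 n hn u hu).trans ?_
      have b1 : ∑ i ∈ Finset.range (n + 1), (a + x (z + (i : ℤ) • e)) ≤
          ∑ i ∈ Finset.range R, (a + x (z + (i : ℤ) • e)) := Finset.sum_le_sum_of_subset_of_nonneg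
        (Finset.range_mono hn) fun i _ _ => add_nonneg ha.le (x0 _)
      rw [Finset.sum_add_distrib (s := Finset.range R), Finset.sum_const, Finset.card_range,
        nsmul_eq_mul] at b1
      linarith
    · have hn : n + 1 < R := by rw [abs_neg, Nat.abs_cast] at hj; exact_mod_cast hj
      refine (w2 n hn u hu).trans ?_
      have b1 : ∑ i ∈ Finset.range (n + 1), (a + x (z + (-(i + 1 : ℕ) : ℤ) • e)) ≤
          ∑ i ∈ Finset.range (R - 1), (a + x (z + (-(i + 1 : ℕ) : ℤ) • e)) :=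
        Finset.sum_le_sum_of_subset_of_nonneg (Finset.range_mono (by omega))
          fun i _ _ => add_nonneg ha.le (x0 _)
      rw [Finset.sum_add_distrib (s := Finset.range (R - 1)), Finset.sum_const, Finset.card_range,
        nsmul_eq_mul] at b1
      have b2 : ((R - 1 : ℕ) : ℝ) ≤ R := by exact_mod_cast Nat.sub_le R 1
      nlinarith
  have cF := row (θ := θ) (ϑ := ϑ) (D := D) (a := a) (η := η.toReal) (R := R) e
    (fun z => h (vt z) k) (fun z => g (vt z) k) x S V₁ hθ.le hϑ hϑ1 hD ha.le ENNReal.toReal_nonneg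
    hR ?_ loc
  swap
  · intro z hz
    obtain ⟨hz1, i, hi⟩ := Finset.mem_filter.1 hz
    have b1 := (hS.wire z hz1 k hkI i hi).2
    have b2 := lat_le (hX z hz1) ha.le (hX' z hz1)
    have b3 := (hX z hz1).net
    rw [← ENNReal.ofReal_toReal (hX' z hz1), ENNReal.ofReal_le_ofReal_iff (x0 z)] at b3
    refine ⟨x0 z, by simp only [nx] at b3; linarith, ?_,
      hS.near z hz1 _ (vt_mem z I) i (hi ⟨_, left_mem_segment ℝ _ _, rfl⟩) k hk2,
      hS.near z hz1 _ (step_mem z hkI) i (hi ⟨_, right_mem_segment ℝ _ _, rfl⟩) k hk2⟩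
    have b4 : edist (h (nx z k) k) (h (vt z) k) ≤
        ENNReal.ofReal ((1 + ϑ) * (a + 2 * x z) + η.toReal) := by
      have := x0 z
      rw [ENNReal.ofReal_add (by positivity) ENNReal.toReal_nonneg, ENNReal.ofReal_toReal hη,
        ENNReal.ofReal_mul (by positivity)]
      refine le_trans (le_trans ?_ b1) (add_le_add (mul_le_mul_right b2 _) le_rfl)
      fin_cases k
      · exact le_self_add
      · exact le_add_self
      · exact absurd rfl hk2
    have b5 := (edist_le_ofReal (by have := x0 z; positivity)).1 b4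
    rw [Real.dist_eq] at b5
    exact (le_abs_self _).trans b5
  set F := V₁.filter fun z => h (vt (z + e)) k - h (vt z) k < (1 - θ) * a with hF
  set T := V.filter fun z => ¬ ((∃ i, g '' segment ℝ (vt z) (nx z k) ⊆ Γ i) ∧
      lat g (vt z) (nx z k) ≤ ENNReal.ofReal ((1 + θ) * a) ∧
      (1 - θ) * a ≤ h (nx z k) k - h (vt z) k) with hT
  have sub : T ⊆ A ∪ B ∪ C ∪ F := by
    intro z hz
    obtain ⟨hz1, hz2⟩ := Finset.mem_filter.1 hz
    by_contra hn
    simp only [Finset.mem_union, not_or] at hn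
    obtain ⟨⟨⟨n1, n2⟩, n3⟩, n4⟩ := hn
    have m1 : z ∈ V₁ := Finset.mem_filter.2 ⟨hz1, n1, n2⟩
    have m2 := loc z m1 0 (by simpa using Nat.lt_of_succ_le hR)
    rw [zero_smul, add_zero] at m2
    have m3 := not_le.1 fun h => n3 (Finset.mem_filter.2 ⟨hz1, h⟩)
    refine hz2 ⟨(Finset.mem_filter.1 m2).2, (lat_le (hX z (hVW z hz1)) ha.le
      (hX' z (hVW z hz1))).trans (ENNReal.ofReal_le_ofReal ?_),
      not_lt.1 fun h => n4 (Finset.mem_filter.2 ⟨m1, h⟩)⟩
    linarith
  have cT : (T.card : ℝ) ≤ A.card + B.card + C.card + F.card := by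
    have h1 := Finset.card_le_card sub
    have h2 := Finset.card_union_le (A ∪ B ∪ C) F
    have h3 := Finset.card_union_le (A ∪ B) C
    have h4 := Finset.card_union_le A B
    exact_mod_cast (by omega : T.card ≤ A.card + B.card + C.card + F.card)
  have cS : ∑ z ∈ S, x z ≤ ∑ z ∈ W, x z :=
    Finset.sum_le_sum_of_subset_of_nonneg (Finset.filter_subset _ _) fun z _ _ => x0 z
  have cS' : (S.card : ℝ) ≤ W.card := by exact_mod_cast Finset.card_filter_le _ _
  have p0 : 0 ≤ ϑ * a + η.toReal + 2 * D / R := by positivity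
  have fin : θ * a * T.card ≤
      9 * ∑ z ∈ W, x z + W.card * (ϑ * a + 2 * D / R + η.toReal) := by
    have h1 := mul_le_mul_of_nonneg_left cT (mul_pos hθ ha).le
    have h2 := mul_le_mul_of_nonneg_right cS' p0
    have h3 : θ * (a * A.card) ≤ a * A.card := mul_le_of_le_one_left (by positivity) hθ1
    have h4 : θ * (a * B.card) ≤ a * B.card := mul_le_of_le_one_left (by positivity) hθ1
    nlinarith
  have e1 : ENNReal.ofReal (∑ z ∈ W, x z) = ∑ z ∈ W, X z := by
    rw [ENNReal.ofReal_sum_of_nonneg fun z _ => x0 z]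
    exact Finset.sum_congr rfl fun z hz => ENNReal.ofReal_toReal (hX' z hz)
  have s0 := Finset.sum_nonneg fun z (_ : z ∈ W) => x0 z
  have fin' := ENNReal.ofReal_le_ofReal fin
  rw [ENNReal.ofReal_mul (mul_pos hθ ha).le, ENNReal.ofReal_natCast,
    ENNReal.ofReal_add (by positivity) (by positivity),
    ENNReal.ofReal_mul (show (0 : ℝ) ≤ 9 by norm_num), e1,
    ENNReal.ofReal_mul (Nat.cast_nonneg _), ENNReal.ofReal_natCast,
    ENNReal.ofReal_add (by positivity) ENNReal.toReal_nonneg, ENNReal.ofReal_toReal hη,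
    ENNReal.ofReal_ofNat] at fin'
  exact fin'

end P073.Ln
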